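import Vale.Agent.Lib.P219.Main

namespace Vale.Agent.Results.P219.RotSymBall

open Vale.Agent.Lib.P219

/-- Generalized Cartan-Hadamard inequality with rigidity, in analytic form, for the geodesic ball
of radius `R` centred at the pole of the rotationally symmetric metric `dr^2 + f(r)^2 g_S` on
`R^n`, whose radial sectional curvatures `-f''/f` are at most `κ ≤ 0`. The ball has volume
`n ω_n ∫_0^R f^(n-1)` and boundary area `n ω_n f(R)^(n-1)`. -/
theorem result (n : ℕ) (hn : 2 ≤ n) (κ : ℝ) (hκ : κ ≤ 0) (f : ℝ → ℝ)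
    (hf : Differentiable ℝ f) (hf' : Differentiable ℝ (deriv f))
    (hf0 : f 0 = 0) (hf1 : deriv f 0 = 1)
    (hpos : ∀ r, 0 < r → 0 < f r)
    (hcurv : ∀ r, 0 < r → -(deriv (deriv f) r) / f r ≤ κ)
    (R : ℝ) (hR : 0 < R) :
    ∃ ρ, 0 ≤ ρ ∧
      modelVol n κ ρ = n * omega n * ∫ t in (0 : ℝ)..R, f t ^ (n - 1) ∧
      modelArea n κ ρ ≤ n * omega n * f R ^ (n - 1) ∧
      (modelArea n κ ρ = n * omega n * f R ^ (n - 1) →
        ρ = R ∧ ∀ r ∈ Set.Icc 0 R, f r = sn κ r) :=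
  rotSym_main n hn κ hκ f hf hf' hf0 hf1 hpos hcurv R hR

end Vale.Agent.Results.P219.RotSymBall
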